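import Vale.Agent.P022.H890.Sm

/-!
Boundedness at all cusps from Poisson summation.
-/

open Complex Filter Topology
open scoped Real

noncomputable section

namespace Vale.Agent.P022.H890

open Vale.Agent.P022

/-- twisting by `exp(2πi Q A / C)` -/
def twF (a b c A C : ℤ) (f : ℤ × ℤ → ℂ) (v : ℤ × ℤ) : ℂ :=
  f v * cexp (2 * π * I * ((Qf a b c v * A : ℤ) : ℂ) / (C : ℂ))

theorem Qf_add (a b c : ℤ) (v w : ℤ × ℤ) (M : ℤ) : Qf a b c (v + M • w) =
    Qf a b c v + M * (2 * a * v.1 * w.1 + b * (v.1 * w.2 + v.2 * w.1) + 2 * c * v.2 * w.2 +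
      M * Qf a b c w) := by
  simp only [Qf, Prod.fst_add, Prod.snd_add, Prod.smul_fst, Prod.smul_snd, smul_eq_mul]
  ring

theorem per_tw {a b c A C : ℤ} (hC : C ≠ 0) {m : ℕ} {f : ℤ × ℤ → ℂ} (hf : Per m f) :
    Per (C.natAbs * m) (twF a b c A C f) := by
  intro v w
  obtain ⟨e, he⟩ : ∃ e : ℤ, ((C.natAbs * m : ℕ) : ℤ) = C * e * m := by
    rcases Int.natAbs_eq C with h | h
    · exact ⟨1, by rw [Nat.cast_mul, mul_one, ← h]⟩
    · refine ⟨-1, ?_⟩
      rw [Nat.cast_mul, mul_neg_one]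
      congr 1
      omega
  rw [he]
  have h1 : f (v + (C * e * m) • w) = f v := by
    have := hf v ((C * e) • w)
    rwa [smul_smul, mul_comm (m : ℤ) (C * e)] at this
  rw [twF, twF, h1, Qf_add]
  congr 1
  have hC' : (C : ℂ) ≠ 0 := by exact_mod_cast hC
  rw [Complex.exp_eq_exp_iff_exists_int]
  refine ⟨e * m * (2 * a * v.1 * w.1 + b * (v.1 * w.2 + v.2 * w.1) + 2 * c * v.2 * w.2 +
      C * e * m * Qf a b c w) * A, ?_⟩
  push_cast
  field_simp

theorem th_shift {a b c : ℤ} {D κ : ℕ} {A C : ℤ} (f : ℤ × ℤ → ℂ) (t : ℂ) :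
    th a b c D κ f ((A : ℂ) / C + t) = th a b c D κ (twF a b c A C f) t := by
  unfold th
  congr 1
  funext v
  rw [thT, thT, twF]
  have : cexp (2 * π * I * (Qf a b c v : ℂ) * ((A : ℂ) / C + t)) =
      cexp (2 * π * I * ((Qf a b c v * A : ℤ) : ℂ) / (C : ℂ)) *
        cexp (2 * π * I * (Qf a b c v : ℂ) * t) := by
    rw [← Complex.exp_add]
    congr 1
    push_cast
    ring
  rw [this]
  ring

theorem per_hat {M : ℕ} (hM : 0 < M) (f : ℤ × ℤ → ℂ) : Per M (hatF M f) := by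
  intro v w
  unfold hatF
  refine Finset.sum_congr rfl fun i _ => Finset.sum_congr rfl fun j _ => ?_
  congr 1
  rw [Complex.exp_eq_exp_iff_exists_int]
  refine ⟨w.1 * j.1 - w.2 * i.1, ?_⟩
  have hM' : (M : ℂ) ≠ 0 := by exact_mod_cast hM.ne'
  simp only [Prod.fst_add, Prod.snd_add, Prod.smul_fst, Prod.smul_snd, smul_eq_mul]
  push_cast
  field_simp
  ring

theorem th_translate {a b c : ℤ} {D κ : ℕ} (f : ℤ × ℤ → ℂ) (w : ℂ) (n : ℤ) :
    th a b c D κ f (w + n) = th a b c D κ f w := by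
  unfold th
  congr 1
  funext v
  rw [thT, thT]
  congr 1
  rw [Complex.exp_eq_exp_iff_exists_int]
  exact ⟨Qf a b c v * n, by push_cast; ring⟩

/-- [BDD] from [PO] -/
theorem bdd (hP : POStmt) : BDDStmt := by
  intro a b c D ha hD0 hD κ m hm f hf A B C d hdet
  by_cases hC : C = 0
  · obtain ⟨K, hK0, hK⟩ := th_bdd ha hD0 hD κ hm hf (A := 1) one_pos
    refine ⟨K, fun w hw => ?_⟩
    subst hC
    have h1 : A * d = 1 := by linarith
    have h2 : A = 1 ∧ d = 1 ∨ A = -1 ∧ d = -1 := Int.mul_eq_one_iff_eq_one_or_neg_one.1 h1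
    have h3 : ∃ n : ℤ, ((A : ℂ) * w + B) / (((0 : ℤ) : ℂ) * w + d) = w + n := by
      rcases h2 with ⟨rfl, rfl⟩ | ⟨rfl, rfl⟩
      · exact ⟨B, by push_cast; ring⟩
      · exact ⟨-B, by push_cast; ring⟩
    obtain ⟨n, hn⟩ := h3
    have h4 : ‖((0 : ℤ) : ℂ) * w + d‖ = 1 := by
      rcases h2 with ⟨rfl, rfl⟩ | ⟨rfl, rfl⟩ <;> simp
    rw [hn, th_translate, h4, one_pow, mul_one]
    exact hK w hw
  · have hC' : (C : ℂ) ≠ 0 := by exact_mod_cast hC
    set M : ℕ := C.natAbs * m with hMdef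
    have hM : 0 < M := Nat.mul_pos (Int.natAbs_pos.2 hC) hm
    have hper : Per M (twF a b c A C f) := per_tw hC hf
    have hm0 : (0 : ℝ) < m := by exact_mod_cast hm
    have hD0' : (0 : ℝ) < D := by exact_mod_cast hD0
    have hM0 : (0 : ℝ) < M := by exact_mod_cast hM
    have hMsq : (M : ℝ) ^ 2 = (C : ℝ) ^ 2 * (m : ℝ) ^ 2 := by
      have h1 : ((C.natAbs : ℝ)) ^ 2 = (C : ℝ) ^ 2 := by
        rw [Nat.cast_natAbs]; push_cast; rw [sq_abs]
      rw [hMdef]
      push_cast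
      rw [mul_pow]
      rw [← h1]
    obtain ⟨K, hK0, hK⟩ := th_bdd ha hD0 hD κ hM (per_hat hM (twF a b c A C f))
      (A := 1 / (D * (m : ℝ) ^ 2)) (by positivity)
    refine ⟨(M : ℝ) ^ κ * (|(C : ℝ)| / (Real.sqrt D * (M : ℝ) ^ 2)) ^ (κ + 1) * K,
      fun w hw => ?_⟩
    have hCR : (C : ℝ) ≠ 0 := by exact_mod_cast hC
    set z : ℂ := C * w + d with hz
    have hzim : z.im = C * w.im := by simp [hz]
    have hz0 : z ≠ 0 := by
      intro h
      rw [h] at hzim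
      simp only [Complex.zero_im] at hzim
      have : (C : ℝ) * w.im ≠ 0 := mul_ne_zero hCR (by linarith)
      exact this hzim.symm
    have hdet' : (A : ℂ) * d - B * C = 1 := by exact_mod_cast hdet
    have e1 : ((A : ℂ) * w + B) / z = (A : ℂ) / C + (-1 / (C * z)) := by
      field_simp
      rw [hz]
      linear_combination -hdet'
    have him : (-1 / (C * z) : ℂ).im = w.im / Complex.normSq z := by
      rw [Complex.div_im]
      have h1 : Complex.normSq ((C : ℂ) * z) = (C : ℝ) ^ 2 * Complex.normSq z := by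
        rw [Complex.normSq_mul]
        congr 1
        rw [← Complex.ofReal_intCast, Complex.normSq_ofReal]
        ring
      rw [h1]
      have h2 : ((C : ℂ) * z).im = (C : ℝ) ^ 2 * w.im := by
        simp [Complex.mul_im, hzim]
        ring
      have h3 : Complex.normSq z ≠ 0 := by simpa [Complex.normSq_eq_zero] using hz0
      rw [h2]
      simp
      field_simp
    have hpos : 0 < (-1 / (C * z) : ℂ).im := by
      rw [him]
      exact div_pos (by linarith) (Complex.normSq_pos.2 hz0)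
    rw [e1, th_shift, (hP a b c D ha hD0 hD κ M hM _ hper _ hpos).2]
    have hsq : (Real.sqrt D : ℂ) ≠ 0 := by
      exact_mod_cast (Real.sqrt_pos.2 hD0').ne'
    have hMC : (M : ℂ) ≠ 0 := by exact_mod_cast hM.ne'
    have hDC : (D : ℂ) ≠ 0 := by exact_mod_cast hD0.ne'
    have e2 : (-1 / (D * (M : ℂ) ^ 2 * (-1 / (C * z))) : ℂ) = C * z / (D * (M : ℂ) ^ 2) := by
      field_simp
    have e3 : (I / ((Real.sqrt D : ℂ) * (M : ℂ) ^ 2 * (-1 / (C * z))) : ℂ) =
        -I * (C * z) / ((Real.sqrt D : ℂ) * (M : ℂ) ^ 2) := by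
      field_simp
    have hb : ‖th a b c D κ (hatF M (twF a b c A C f)) (C * z / (D * (M : ℂ) ^ 2))‖ ≤ K := by
      refine hK _ ?_
      have h1 : (C * z / (D * (M : ℂ) ^ 2) : ℂ) =
          (((C : ℝ) / (D * (M : ℝ) ^ 2) : ℝ) : ℂ) * z := by
        push_cast; ring
      rw [h1, Complex.im_ofReal_mul, hzim, hMsq]
      have h2 : (C : ℝ) / (D * ((C : ℝ) ^ 2 * (m : ℝ) ^ 2)) * (C * w.im) =
          w.im / (D * (m : ℝ) ^ 2) := by
        field_simp
      rw [h2]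
      exact div_le_div_of_nonneg_right hw (by positivity)
    rw [e2, e3, norm_mul, norm_mul, norm_pow, norm_pow]
    have e4 : ‖(-I * (C * z) / ((Real.sqrt D : ℂ) * (M : ℂ) ^ 2) : ℂ)‖ =
        |(C : ℝ)| / (Real.sqrt D * (M : ℝ) ^ 2) * ‖z‖ := by
      rw [norm_div, norm_mul, norm_mul, norm_mul, norm_neg, Complex.norm_I, norm_pow,
        Complex.norm_natCast, Complex.norm_intCast, Complex.norm_of_nonneg (Real.sqrt_nonneg _)]
      ring
    rw [e4, Complex.norm_natCast, mul_pow]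
    calc (M : ℝ) ^ κ * ((|(C : ℝ)| / (Real.sqrt D * (M : ℝ) ^ 2)) ^ (κ + 1) * ‖z‖ ^ (κ + 1)) *
          ‖th a b c D κ (hatF M (twF a b c A C f)) (C * z / (D * (M : ℂ) ^ 2))‖
        ≤ (M : ℝ) ^ κ * ((|(C : ℝ)| / (Real.sqrt D * (M : ℝ) ^ 2)) ^ (κ + 1) * ‖z‖ ^ (κ + 1)) * K :=
          mul_le_mul_of_nonneg_left hb (by positivity)
      _ = (M : ℝ) ^ κ * (|(C : ℝ)| / (Real.sqrt D * (M : ℝ) ^ 2)) ^ (κ + 1) * K *
          ‖z‖ ^ (κ + 1) := by ring

end Vale.Agent.P022.H890
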