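import Mathlib

/-!
P022, reciprocity: two commuting automorphisms `σ`, `τ` of a commutative monoid `A` and elements
`y`, `z` with `y * σ z = z * τ y` define a cocycle `P` on `ℕ × ℕ` with `P 1 0 = y`, `P 0 1 = z`.
Consequences: the congruence at a finite place (`val_cong`) and the sign rule at a real place
(`real_pos`).
-/

namespace Vale.Agent.P022.H890.CF

open Finset

variable {A : Type*} [CommMonoid A]

/-- the cocycle -/
def P (σ τ : MulAut A) (y z : A) (i j : ℕ) : A :=
  (∏ k ∈ range i, (σ ^ k) y) * ∏ l ∈ range j, (σ ^ i) ((τ ^ l) z)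

variable {σ τ : MulAut A} {y z : A}

@[simp] theorem P_zero_zero : P σ τ y z 0 0 = 1 := by simp [P]

theorem P_left (i : ℕ) : P σ τ y z i 0 = ∏ k ∈ range i, (σ ^ k) y := by simp [P]

theorem P_right (j : ℕ) : P σ τ y z 0 j = ∏ l ∈ range j, (τ ^ l) z := by simp [P]

theorem P_succ_right (i j : ℕ) :
    P σ τ y z i (j + 1) = P σ τ y z i j * (σ ^ i) ((τ ^ j) z) := by
  rw [P, P, prod_range_succ, mul_assoc]

theorem P_succ_left (hc : Commute σ τ) (h : y * σ z = z * τ y) (i j : ℕ) :
    P σ τ y z (i + 1) j = P σ τ y z i j * (σ ^ i) ((τ ^ j) y) := by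
  induction j with
  | zero => rw [P_left, P_left, prod_range_succ]; simp
  | succ j ih =>
    have h1 : (σ ^ (i + 1)) ((τ ^ j) z) = (σ ^ i) ((τ ^ j) (σ z)) := by
      rw [pow_succ, MulAut.mul_apply]
      have h2 : (σ * τ ^ j) z = (τ ^ j * σ) z := by rw [(hc.pow_right j).eq]
      rw [MulAut.mul_apply, MulAut.mul_apply] at h2
      rw [h2]
    have h3 : (σ ^ i) ((τ ^ (j + 1)) y) = (σ ^ i) ((τ ^ j) (τ y)) := by
      rw [pow_succ, MulAut.mul_apply]
    rw [P_succ_right, P_succ_right, ih, h1, h3, mul_assoc, mul_assoc, ← map_mul, ← map_mul, h,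
      map_mul, map_mul]

theorem P_add (hc : Commute σ τ) (h : y * σ z = z * τ y) (i j i' j' : ℕ) :
    P σ τ y z (i + i') (j + j') = P σ τ y z i j * (σ ^ i * τ ^ j) (P σ τ y z i' j') := by
  induction i' with
  | zero =>
    induction j' with
    | zero => simp
    | succ j' ih =>
      rw [← add_assoc, P_succ_right, P_succ_right, ih, map_mul, mul_assoc]
      congr 2
      simp only [MulAut.mul_apply, pow_add, pow_zero, MulAut.one_apply]
  | succ i' ih =>
    rw [← add_assoc, P_succ_left hc h, P_succ_left hc h, ih, map_mul, mul_assoc]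
    congr 2
    have h2 : (σ ^ i * τ ^ j) ((σ ^ i') ((τ ^ j') y)) = (σ ^ i * (τ ^ j * σ ^ i') * τ ^ j') y := by
      simp only [MulAut.mul_apply]
    rw [h2, ← (hc.pow_pow i' j).eq, ← MulAut.mul_apply]
    have h3 : σ ^ i * (σ ^ i' * τ ^ j) * τ ^ j' = σ ^ (i + i') * τ ^ (j + j') := by
      rw [pow_add, pow_add]; simp only [mul_assoc]
    rw [h3]

/-- iterating along one vector -/
theorem P_smul (hc : Commute σ τ) (h : y * σ z = z * τ y) (a b k : ℕ) :
    P σ τ y z (k * a) (k * b) = ∏ t ∈ range k, ((σ ^ a * τ ^ b) ^ t) (P σ τ y z a b) := by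
  induction k with
  | zero => simp
  | succ k ih =>
    rw [add_mul, add_mul, one_mul, one_mul, P_add hc h, ih, prod_range_succ]
    congr 2
    rw [(hc.pow_pow a b).mul_pow, ← pow_mul, ← pow_mul, mul_comm a k, mul_comm b k]

theorem pow_fix {σ : MulAut A} {u : A} (h : σ u = u) (k : ℕ) : (σ ^ k) u = u := by
  induction k with
  | zero => simp
  | succ k ih => rw [pow_succ, MulAut.mul_apply, h, ih]

/-- the values on the multiples of the two periods -/
theorem P_period (hc : Commute σ τ) (h : y * σ z = z * τ y) {n N : ℕ} {α β : A}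
    (hα : ∏ k ∈ range n, (σ ^ k) y = α) (hβ : ∏ l ∈ range N, (τ ^ l) z = β)
    (hσα : σ α = α) (hσβ : σ β = β) (hτβ : τ β = β) (e f : ℕ) :
    P σ τ y z (e * n) (f * N) = α ^ e * β ^ f := by
  have h1 : P σ τ y z (e * n) 0 = α ^ e := by
    have := P_smul hc h n 0 e
    rw [mul_zero, P_left n, hα] at this
    rw [this]
    calc ∏ t ∈ range e, ((σ ^ n * τ ^ 0) ^ t) α = ∏ _t ∈ range e, α := by
          refine prod_congr rfl fun t _ => ?_
          rw [pow_zero, mul_one]
          exact pow_fix (pow_fix hσα n) t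
      _ = α ^ e := by simp
  have h2 : P σ τ y z 0 (f * N) = β ^ f := by
    have := P_smul hc h 0 N f
    rw [mul_zero, P_right N, hβ] at this
    rw [this]
    calc ∏ t ∈ range f, ((σ ^ 0 * τ ^ N) ^ t) β = ∏ _t ∈ range f, β := by
          refine prod_congr rfl fun t _ => ?_
          rw [pow_zero, one_mul]
          exact pow_fix (pow_fix hτβ N) t
      _ = β ^ f := by simp
  have h3 := P_add hc h (e * n) 0 0 (f * N)
  rw [add_zero, zero_add] at h3
  rw [h3, h1, h2, map_pow, pow_zero, mul_one, pow_fix hσβ]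

/-- **[D]** the congruence at a finite place: `w` is a valuation (additive), invariant under the
Frobenius `σ ^ a * τ ^ b` -/
theorem val_cong (hc : Commute σ τ) (h : y * σ z = z * τ y) {n N : ℕ} {α β : A}
    (hα : ∏ k ∈ range n, (σ ^ k) y = α) (hβ : ∏ l ∈ range N, (τ ^ l) z = β)
    (hσα : σ α = α) (hσβ : σ β = β) (hτβ : τ β = β)
    (w : A → ℤ) (h1 : w 1 = 0) (hw : ∀ u v, w (u * v) = w u + w v) {a b : ℕ}
    (hab : ∀ u, w ((σ ^ a * τ ^ b) u) = w u) :
    w α * (N * a) + w β * (n * b) = n * N * w (P σ τ y z a b) := by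
  let W : A →* Multiplicative ℤ :=
    { toFun := fun u => Multiplicative.ofAdd (w u)
      map_one' := by rw [h1]; rfl
      map_mul' := fun u v => by rw [hw]; rfl }
  have hW : ∀ u, (W u).toAdd = w u := fun u => rfl
  have hk : ∀ (t : ℕ) (u : A), W (((σ ^ a * τ ^ b) ^ t) u) = W u := by
    intro t
    induction t with
    | zero => intro u; simp
    | succ t ih =>
      intro u
      rw [pow_succ, MulAut.mul_apply, ih]
      exact congrArg Multiplicative.ofAdd (hab u)
  have h2 := P_smul hc h a b (n * N)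
  have h3 := P_period hc h hα hβ hσα hσβ hτβ (N * a) (n * b)
  have e1 : N * a * n = n * N * a := by ring
  have e2 : n * b * N = n * N * b := by ring
  rw [e1, e2, h2] at h3
  have h4 := congrArg (fun u => (W u).toAdd) h3
  simp only [map_prod, hk, prod_const, card_range, map_mul, map_pow, toAdd_mul, toAdd_pow,
    hW, nsmul_eq_mul] at h4
  push_cast at h4
  linear_combination -h4

/-- **[DR]** the sign rule at a real place: `x` is a multiplicative map to `ℂ` for which
`σ ^ a * τ ^ b` is complex conjugation, `2 a = e n`, `2 b = f N` -/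
theorem real_pos (hc : Commute σ τ) (h : y * σ z = z * τ y) {n N : ℕ} {α β : A}
    (hα : ∏ k ∈ range n, (σ ^ k) y = α) (hβ : ∏ l ∈ range N, (τ ^ l) z = β)
    (hσα : σ α = α) (hσβ : σ β = β) (hτβ : τ β = β)
    (x : A →* ℂ) {a b : ℕ} (hx0 : x (P σ τ y z a b) ≠ 0)
    (hab : ∀ u, x ((σ ^ a * τ ^ b) u) = (starRingEnd ℂ) (x u)) {e f : ℕ} (he : 2 * a = e * n)
    (hf : 2 * b = f * N) :
    ∃ r : ℝ, 0 < r ∧ x α ^ e * x β ^ f = (r : ℂ) := by
  refine ⟨Complex.normSq (x (P σ τ y z a b)), Complex.normSq_pos.2 hx0, ?_⟩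
  have h2 := P_smul hc h a b 2
  have h3 := P_period hc h hα hβ hσα hσβ hτβ e f
  rw [he, hf, h3] at h2
  have h4 := congrArg x h2
  rw [prod_range_succ, prod_range_one, map_mul, map_mul, map_pow, map_pow] at h4
  rw [h4, pow_zero, MulAut.one_apply, pow_one, hab, Complex.mul_conj]

end Vale.Agent.P022.H890.CF
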