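import Vale.Agent.P022.H472.Lit

/-!
Summability of the general term of the theta series, uniformly on half planes.
-/

open Complex Filter Topology
open scoped Real

noncomputable section

namespace Vale.Agent.P022.H890

open Vale.Agent.P022

theorem per_bdd {m : ℕ} (hm : 0 < m) {f : ℤ × ℤ → ℂ} (hf : Per m f) :
    ∃ K : ℝ, 0 ≤ K ∧ ∀ v, ‖f v‖ ≤ K := by
  refine ⟨∑ i : Fin m, ∑ j : Fin m, ‖f ((i.1 : ℤ), (j.1 : ℤ))‖, by positivity, fun v => ?_⟩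
  have hm' : (m : ℤ) ≠ 0 := by exact_mod_cast hm.ne'
  have h0 : ∀ x : ℤ, 0 ≤ x % m ∧ x % m < m := fun x =>
    ⟨Int.emod_nonneg _ hm', Int.emod_lt_of_pos _ (by exact_mod_cast hm)⟩
  have h1 : f v = f (v.1 % m, v.2 % m) := by
    rw [← hf (v.1 % m, v.2 % m) (v.1 / m, v.2 / m)]
    congr 1
    ext
    · simpa using (Int.emod_add_mul_ediv v.1 m).symm
    · simpa using (Int.emod_add_mul_ediv v.2 m).symm
  have h2 : ∀ x : ℤ, ∃ i : Fin m, (i.1 : ℤ) = x % m := fun x =>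
    ⟨⟨(x % m).toNat, by have := h0 x; omega⟩, by have := h0 x; simp only; omega⟩
  obtain ⟨i, hi⟩ := h2 v.1
  obtain ⟨j, hj⟩ := h2 v.2
  rw [h1, ← hi, ← hj]
  refine le_trans ?_ (Finset.single_le_sum (f := fun i : Fin m =>
    ∑ j : Fin m, ‖f ((i.1 : ℤ), (j.1 : ℤ))‖) (fun _ _ => by positivity) (Finset.mem_univ i))
  exact Finset.single_le_sum (f := fun j : Fin m => ‖f ((i.1 : ℤ), (j.1 : ℤ))‖)
    (fun _ _ => by positivity) (Finset.mem_univ j)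

/-- `|ev|² = a Q` -/
theorem normSq_ev {a b c : ℤ} {D : ℕ} (hD : b ^ 2 - 4 * a * c = -(D : ℤ)) (v : ℤ × ℤ) :
    Complex.normSq (ev a b D v) = a * Qf a b c v := by
  have h1 : ((b : ℝ)) ^ 2 - 4 * a * c = -(D : ℝ) := by exact_mod_cast hD
  have h2 : Real.sqrt D * Real.sqrt D = D := Real.mul_self_sqrt (by positivity)
  have hre : (ev a b D v).re = a * v.1 + b / 2 * v.2 := by
    simp [ev, Complex.add_re, Complex.mul_re, Complex.mul_im]
    try ring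
  have him : (ev a b D v).im = Real.sqrt D / 2 * v.2 := by
    simp [ev, Complex.add_im, Complex.mul_re, Complex.mul_im]
    try ring
  rw [Complex.normSq_apply, hre, him, Qf]
  push_cast
  linear_combination ((v.2 : ℝ) ^ 2 / 4) * h2 + ((v.2 : ℝ) ^ 2 / 4) * h1

/-- the form is positive definite -/
theorem Qf_ge {a b c : ℤ} {D : ℕ} (ha : 0 < a) (hD0 : 0 < D)
    (hD : b ^ 2 - 4 * a * c = -(D : ℤ)) : ∃ δ : ℝ, 0 < δ ∧ ∀ v : ℤ × ℤ,
      δ * ((v.1 : ℝ) ^ 2 + (v.2 : ℝ) ^ 2) ≤ Qf a b c v := by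
  have ha' : (0 : ℝ) < a := by exact_mod_cast ha
  have hD' : (0 : ℝ) < D := by exact_mod_cast hD0
  have h1 : ((b : ℝ)) ^ 2 - 4 * a * c = -(D : ℝ) := by exact_mod_cast hD
  have hc : (0 : ℝ) < c := by nlinarith [sq_nonneg (b : ℝ)]
  refine ⟨D / (4 * (a + c)), by positivity, fun v => ?_⟩
  have h3 : (Qf a b c v : ℝ) = a * (v.1 : ℝ) ^ 2 + b * v.1 * v.2 + c * (v.2 : ℝ) ^ 2 := by
    simp [Qf]
  rw [h3, div_mul_eq_mul_div, div_le_iff₀ (by positivity)]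
  nlinarith [sq_nonneg (2 * a * (v.1 : ℝ) + b * v.2), sq_nonneg (2 * c * (v.2 : ℝ) + b * v.1),
    mul_pos ha' hc]

theorem summable_int (s : ℝ) (hs : 0 < s) : Summable fun x : ℤ => Real.exp (-(s * (x : ℝ) ^ 2)) := by
  have h1 : Summable fun n : ℕ => Real.exp (-(s * (n : ℝ))) := by
    have := Real.summable_exp_neg_nat.comp_injective (i := id) (fun _ _ h => h)
    have h2 : (fun n : ℕ => Real.exp (-(s * (n : ℝ)))) = fun n : ℕ => Real.exp (-s) ^ n := by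
      funext n
      rw [← Real.exp_nat_mul]
      congr 1
      ring
    rw [h2]
    exact summable_geometric_of_lt_one (Real.exp_nonneg _) (by
      rw [Real.exp_lt_one_iff]; linarith)
  have h3 : ∀ x : ℤ, Real.exp (-(s * (x : ℝ) ^ 2)) ≤ Real.exp (-(s * (x.natAbs : ℝ))) := by
    intro x
    refine Real.exp_le_exp.2 (neg_le_neg (mul_le_mul_of_nonneg_left ?_ hs.le))
    have h4 : x.natAbs ≤ x.natAbs ^ 2 := Nat.le_self_pow two_ne_zero _
    have h5 : ((x.natAbs : ℝ)) ^ 2 = (x : ℝ) ^ 2 := by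
      rw [Nat.cast_natAbs]; push_cast; rw [sq_abs]
    rw [← h5]
    exact_mod_cast h4
  refine Summable.of_nonneg_of_le (fun _ => Real.exp_nonneg _) h3 ?_
  refine Summable.of_nat_of_neg ?_ ?_
  · simpa using h1
  · simpa using h1

theorem summable_Q {a b c : ℤ} {D : ℕ} (ha : 0 < a) (hD0 : 0 < D)
    (hD : b ^ 2 - 4 * a * c = -(D : ℤ)) (s : ℝ) (hs : 0 < s) :
    Summable fun v : ℤ × ℤ => Real.exp (-(s * Qf a b c v)) := by
  obtain ⟨δ, hδ, h⟩ := Qf_ge ha hD0 hD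
  have h1 := summable_int (s * δ) (by positivity)
  have h2 : Summable fun v : ℤ × ℤ =>
      Real.exp (-(s * δ * (v.1 : ℝ) ^ 2)) * Real.exp (-(s * δ * (v.2 : ℝ) ^ 2)) :=
    h1.mul_of_nonneg h1 (fun _ => Real.exp_nonneg _) (fun _ => Real.exp_nonneg _)
  refine Summable.of_nonneg_of_le (fun _ => Real.exp_nonneg _) (fun v => ?_) h2
  rw [← Real.exp_add]
  refine Real.exp_le_exp.2 ?_
  have := mul_le_mul_of_nonneg_left (h v) hs.le
  linarith

theorem pow_exp_bdd (κ : ℕ) (s : ℝ) (hs : 0 < s) : ∃ K : ℝ, 0 ≤ K ∧ ∀ x : ℝ, 0 ≤ x →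
    x ^ κ * Real.exp (-(s * x)) ≤ K := by
  refine ⟨(κ.factorial : ℝ) / s ^ κ, by positivity, fun x hx => ?_⟩
  have h1 : (s * x) ^ κ / κ.factorial ≤ Real.exp (s * x) :=
    Real.pow_div_factorial_le_exp _ (by positivity) κ
  rw [Real.exp_neg, ← div_eq_mul_inv, div_le_iff₀ (Real.exp_pos _), div_mul_eq_mul_div,
    le_div_iff₀ (by positivity)]
  rw [div_le_iff₀ (by positivity), mul_pow] at h1
  linarith

/-- uniform absolute convergence -/
theorem summable_ev {a b c : ℤ} {D : ℕ} (ha : 0 < a) (hD0 : 0 < D)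
    (hD : b ^ 2 - 4 * a * c = -(D : ℤ)) (κ : ℕ) {f : ℤ × ℤ → ℂ} {K : ℝ} (hf : ∀ v, ‖f v‖ ≤ K)
    (s : ℝ) (hs : 0 < s) :
    Summable fun v : ℤ × ℤ => ‖f v * ev a b D v ^ κ‖ * Real.exp (-(s * Qf a b c v)) := by
  have hK : 0 ≤ K := (norm_nonneg _).trans (hf 0)
  obtain ⟨C, hC0, hC⟩ := pow_exp_bdd κ (s / 2) (by positivity)
  have ha' : (0 : ℝ) < a := by exact_mod_cast ha
  obtain ⟨δ, hδ, hQ⟩ := Qf_ge ha hD0 hD
  have hQ0 : ∀ v : ℤ × ℤ, (0 : ℝ) ≤ Qf a b c v := fun v => le_trans (by positivity) (hQ v)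
  have key : ∀ v : ℤ × ℤ, ‖ev a b D v‖ ^ κ ≤ (1 + a) ^ κ * (1 + (Qf a b c v : ℝ)) ^ κ := by
    intro v
    rw [← mul_pow]
    refine pow_le_pow_left₀ (norm_nonneg _) ?_ κ
    have h1 : ‖ev a b D v‖ ^ 2 = a * Qf a b c v := by
      rw [← Complex.normSq_eq_norm_sq]; exact normSq_ev hD v
    have h2 : ‖ev a b D v‖ ^ 2 ≤ ((1 + a) * (1 + (Qf a b c v : ℝ))) ^ 2 := by
      rw [h1]
      have h3 := hQ0 v
      nlinarith [mul_nonneg ha'.le h3, mul_nonneg (mul_nonneg ha'.le h3) h3,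
        mul_nonneg (mul_nonneg ha'.le ha'.le) h3,
        mul_nonneg (mul_nonneg (mul_nonneg ha'.le ha'.le) h3) h3]
    have h4 : (0 : ℝ) ≤ (1 + a) * (1 + (Qf a b c v : ℝ)) := by have := hQ0 v; positivity
    exact le_of_sq_le_sq h2 h4
  refine Summable.of_nonneg_of_le (fun _ => by positivity) (fun v => ?_)
    ((summable_Q ha hD0 hD (s / 2) (by positivity)).mul_left (K * ((1 + a) ^ κ *
      (C * Real.exp (s / 2)))))
  have h5 := hC (1 + (Qf a b c v : ℝ)) (by have := hQ0 v; positivity)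
  have h6 : Real.exp (-(s * Qf a b c v)) = Real.exp (-(s / 2 * (1 + (Qf a b c v : ℝ)))) *
      Real.exp (s / 2) * Real.exp (-(s / 2 * Qf a b c v)) := by
    rw [← Real.exp_add, ← Real.exp_add]
    congr 1
    ring
  rw [norm_mul, norm_pow, h6]
  calc ‖f v‖ * ‖ev a b D v‖ ^ κ * (Real.exp (-(s / 2 * (1 + (Qf a b c v : ℝ)))) *
      Real.exp (s / 2) * Real.exp (-(s / 2 * Qf a b c v)))
      ≤ K * ((1 + a) ^ κ * (1 + (Qf a b c v : ℝ)) ^ κ) *
        (Real.exp (-(s / 2 * (1 + (Qf a b c v : ℝ)))) *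
      Real.exp (s / 2) * Real.exp (-(s / 2 * Qf a b c v))) := by
        refine mul_le_mul_of_nonneg_right ?_ (by positivity)
        exact mul_le_mul (hf v) (key v) (by positivity) hK
    _ = K * ((1 + a) ^ κ * (((1 + (Qf a b c v : ℝ)) ^ κ *
        Real.exp (-(s / 2 * (1 + (Qf a b c v : ℝ))))) * Real.exp (s / 2))) *
        Real.exp (-(s / 2 * Qf a b c v)) := by ring
    _ ≤ K * ((1 + a) ^ κ * (C * Real.exp (s / 2))) * Real.exp (-(s / 2 * Qf a b c v)) := by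
        gcongr

/-- the norm of the general term -/
theorem norm_thT {a b c : ℤ} {D : ℕ} (κ : ℕ) (f : ℤ × ℤ → ℂ) (w : ℂ) (v : ℤ × ℤ) :
    ‖thT a b c D κ f w v‖ =
      ‖f v * ev a b D v ^ κ‖ * Real.exp (-(2 * π * w.im * Qf a b c v)) := by
  rw [thT, norm_mul, Complex.norm_exp]
  congr 2
  have : (2 * (π : ℂ) * I * (Qf a b c v : ℂ) * w : ℂ) =
      ((2 * π * (Qf a b c v : ℝ) : ℝ) : ℂ) * (I * w) := by
    push_cast; ring
  rw [this, Complex.re_ofReal_mul]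
  simp
  ring

theorem norm_thT_le {a b c : ℤ} {D : ℕ} (ha : 0 < a) (hD0 : 0 < D)
    (hD : b ^ 2 - 4 * a * c = -(D : ℤ)) (κ : ℕ) (f : ℤ × ℤ → ℂ) {A : ℝ} {w : ℂ}
    (hw : A ≤ w.im) (v : ℤ × ℤ) :
    ‖thT a b c D κ f w v‖ ≤ ‖f v * ev a b D v ^ κ‖ * Real.exp (-(2 * π * A * Qf a b c v)) := by
  rw [norm_thT]
  refine mul_le_mul_of_nonneg_left (Real.exp_le_exp.2 (neg_le_neg ?_)) (norm_nonneg _)
  obtain ⟨δ, hδ, hQ⟩ := Qf_ge ha hD0 hD
  have hQ0 : (0 : ℝ) ≤ Qf a b c v := le_trans (by positivity) (hQ v)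
  refine mul_le_mul_of_nonneg_right ?_ hQ0
  exact mul_le_mul_of_nonneg_left hw (by positivity)

theorem summable_bnd {a b c : ℤ} {D : ℕ} (ha : 0 < a) (hD0 : 0 < D)
    (hD : b ^ 2 - 4 * a * c = -(D : ℤ)) (κ : ℕ) {m : ℕ} (hm : 0 < m) {f : ℤ × ℤ → ℂ}
    (hf : Per m f) {A : ℝ} (hA : 0 < A) :
    Summable fun v : ℤ × ℤ =>
      ‖f v * ev a b D v ^ κ‖ * Real.exp (-(2 * π * A * Qf a b c v)) := by
  obtain ⟨K, _, hK⟩ := per_bdd hm hf
  exact summable_ev ha hD0 hD κ hK (2 * π * A) (by positivity)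

theorem summable_thT {a b c : ℤ} {D : ℕ} (ha : 0 < a) (hD0 : 0 < D)
    (hD : b ^ 2 - 4 * a * c = -(D : ℤ)) (κ : ℕ) {m : ℕ} (hm : 0 < m) {f : ℤ × ℤ → ℂ}
    (hf : Per m f) {w : ℂ} (hw : 0 < w.im) : Summable (thT a b c D κ f w) :=
  Summable.of_norm_bounded (summable_bnd ha hD0 hD κ hm hf hw)
    fun v => norm_thT_le ha hD0 hD κ f le_rfl v

/-- boundedness on half planes -/
theorem th_bdd {a b c : ℤ} {D : ℕ} (ha : 0 < a) (hD0 : 0 < D)
    (hD : b ^ 2 - 4 * a * c = -(D : ℤ)) (κ : ℕ) {m : ℕ} (hm : 0 < m) {f : ℤ × ℤ → ℂ}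
    (hf : Per m f) {A : ℝ} (hA : 0 < A) :
    ∃ K : ℝ, 0 ≤ K ∧ ∀ w : ℂ, A ≤ w.im → ‖th a b c D κ f w‖ ≤ K := by
  have h := summable_bnd ha hD0 hD κ hm hf hA
  refine ⟨∑' v : ℤ × ℤ, ‖f v * ev a b D v ^ κ‖ * Real.exp (-(2 * π * A * Qf a b c v)),
    tsum_nonneg fun _ => by positivity, fun w hw => ?_⟩
  exact tsum_of_norm_bounded h.hasSum fun v => norm_thT_le ha hD0 hD κ f hw v

/-- [HOL] -/
theorem hol : HOLStmt := by
  intro a b c D ha hD0 hD κ m hm f hf z hz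
  have hz' : 0 < z.im := hz
  have hU : IsOpen {w : ℂ | z.im / 2 < w.im} := isOpen_lt continuous_const Complex.continuous_im
  have h1 : DifferentiableOn ℂ (fun w => ∑' v, thT a b c D κ f w v)
      {w : ℂ | z.im / 2 < w.im} := by
    refine differentiableOn_tsum_of_summable_norm
      (summable_bnd ha hD0 hD κ hm hf (A := z.im / 2) (by positivity)) ?_ hU ?_
    · intro v
      unfold thT
      fun_prop
    · intro v w hw
      exact norm_thT_le ha hD0 hD κ f (le_of_lt hw) v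
  have h2 : DifferentiableAt ℂ (th a b c D κ f) z :=
    h1.differentiableAt (hU.mem_nhds (by simp only [Set.mem_ofPred_eq]; linarith))
  exact h2.differentiableWithinAt

end Vale.Agent.P022.H890
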